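import Vale.Agent.P141.H540.GenRA
import Vale.Agent.P141.H841.Lay

/-!
# P141, line (A): where the masks of the later generations live

Letters of `H540.GenRA`, `H841.Lay`.  At fixed `x1`, `y`:

* `HSn A` : the squared Hilbert-Schmidt norm;
* `Dn κ y k a` : at some scale `j ≥ k`, over the cell `a` of `x0`, the slot is large (`κ² / 16`) at
  a cell of `x3` equal or adjacent to that of `y`;
* `Dn_anc` : the set grows downwards;
* `stop_HS` : a cell of generation at least `g + 1` has a large slot at itself or above;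
* `hh1`, `hh2` : the coarse and the fine layers of the generation `g + 1`;
* `Dn_zero` : the set at the scale `0`.
-/

namespace Vale.Agent.P141.H521

open Finset Matrix
open Vale.Agent.P141.PL (Pt iv hs ix mem_iv ix_ix)
open Vale.Agent.P141.H970
open Vale.Agent.P141.H43 (nsq nsq_nonneg)
open Vale.Agent.P141.H922 (ck)
open Vale.Agent.P141.H690 (tr6)
open Vale.Agent.P141.H677 (MT KT rt ix_two ix_le hs_ix)
open Vale.Agent.P141.H841 (Lm Rm Nn Lm_le nsq_add_le nsq_sub_le nsq_sum_le)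
open Vale.Agent.P141.H540 (XS gmm sG gmm_eq gn_st Rm_gen Rm_symm)

noncomputable section

open scoped Classical

set_option linter.unusedSectionVars false

variable {ι : Type*} [Fintype ι] [DecidableEq ι]

/-! ### The Hilbert-Schmidt norm -/

/-- the squared Hilbert-Schmidt norm -/
def HSn (A : Matrix ι ι ℝ) : ℝ := ∑ a, nsq (A *ᵥ Pi.single a 1)

theorem HSn_nonneg (A : Matrix ι ι ℝ) : 0 ≤ HSn A := sum_nonneg fun _ _ => nsq_nonneg _

theorem HSn_eq (A : Matrix ι ι ℝ) : HSn A = ∑ c, ∑ a, A c a ^ 2 := by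
  unfold HSn
  rw [sum_comm]
  refine sum_congr rfl fun a _ => ?_
  rw [H841.nsq_eq]
  refine sum_congr rfl fun c _ => ?_
  rw [mulVec_single_one, col_apply]

/-- `|A w|² ≤ |A|²_HS |w|²` -/
theorem nsq_le_HSn (A : Matrix ι ι ℝ) (w : ι → ℝ) : nsq (A *ᵥ w) ≤ HSn A * nsq w := by
  rw [HSn_eq, sum_mul, H841.nsq_eq (A *ᵥ w), H841.nsq_eq w]
  refine sum_le_sum fun c _ => ?_
  have h := sum_mul_sq_le_sq_mul_sq (univ : Finset ι) (fun a => A c a) (fun a => w a)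
  have e : (A *ᵥ w) c = ∑ a, A c a * w a := rfl
  rw [e]
  exact h

theorem HSn_sub_le (A B : Matrix ι ι ℝ) : HSn (A - B) ≤ 2 * HSn A + 2 * HSn B := by
  unfold HSn
  rw [mul_sum, mul_sum, ← sum_add_distrib]
  refine sum_le_sum fun a _ => ?_
  rw [sub_mulVec]
  exact nsq_sub_le _ _

theorem HSn_add_le (A B : Matrix ι ι ℝ) : HSn (A + B) ≤ 2 * HSn A + 2 * HSn B := by
  unfold HSn
  rw [mul_sum, mul_sum, ← sum_add_distrib]
  refine sum_le_sum fun a _ => ?_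
  rw [add_mulVec]
  exact nsq_add_le _ _

/-- Cauchy-Schwarz over a finite set -/
theorem HSn_sum_le {J : Type*} (S : Finset J) (u : J → Matrix ι ι ℝ) :
    HSn (∑ i ∈ S, u i) ≤ S.card * ∑ i ∈ S, HSn (u i) := by
  unfold HSn
  rw [sum_comm, mul_sum]
  refine sum_le_sum fun a _ => ?_
  rw [Matrix.sum_mulVec]
  have h := nsq_sum_le S (fun _ => (1 : ℝ)) (fun _ _ => one_pos) fun i => u i *ᵥ Pi.single a 1
  refine h.trans (le_of_eq ?_)
  simp

/-- `tr A⁶ ≤ (|A|²_HS)³` -/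
theorem tr6_le {A : Matrix ι ι ℝ} (hA : Aᵀ = A) : tr6 A ≤ HSn A ^ 3 := by
  have e1 : ∀ B : Matrix ι ι ℝ, B.trace = ∑ a, (Pi.single a (1 : ℝ) : ι → ℝ) ⬝ᵥ
      (B *ᵥ Pi.single a 1) := by
    intro B
    rw [Matrix.trace]
    refine sum_congr rfl fun a _ => ?_
    rw [mulVec_single_one, single_dotProduct, one_mul, col_apply, diag_apply]
  have e2 : tr6 A = ∑ a, nsq (A *ᵥ (A *ᵥ (A *ᵥ Pi.single a 1))) := by
    unfold H690.tr6
    rw [e1]
    refine sum_congr rfl fun a _ => ?_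
    have e3 : (Pi.single a (1 : ℝ) : ι → ℝ) ⬝ᵥ
        ((A * (A * (A * (A * (A * A))))) *ᵥ Pi.single a 1) =
        (A *ᵥ (A *ᵥ (A *ᵥ Pi.single a 1))) ⬝ᵥ (A *ᵥ (A *ᵥ (A *ᵥ Pi.single a 1))) := by
      simp only [← mulVec_mulVec]
      have sw : ∀ u w : ι → ℝ, u ⬝ᵥ A *ᵥ w = (A *ᵥ u) ⬝ᵥ w := by
        intro u w
        rw [dotProduct_mulVec, ← mulVec_transpose, hA]
      rw [sw, sw, sw]
    rw [e3]
    rfl
  rw [e2]
  have h0 := HSn_nonneg A
  have h1 : ∀ a : ι, nsq (A *ᵥ (A *ᵥ (A *ᵥ Pi.single a 1))) ≤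
      HSn A ^ 2 * nsq (A *ᵥ Pi.single a 1) := by
    intro a
    have c1 := nsq_le_HSn A (A *ᵥ (A *ᵥ Pi.single a 1))
    have c2 := nsq_le_HSn A (A *ᵥ Pi.single a 1)
    have c3 := mul_le_mul_of_nonneg_left c2 h0
    refine (c1.trans c3).trans (le_of_eq ?_)
    ring
  refine (sum_le_sum fun a _ => h1 a).trans (le_of_eq ?_)
  rw [← mul_sum]
  unfold HSn
  ring

theorem HSn_of_tr6 {A : Matrix ι ι ℝ} (hA : Aᵀ = A) {κ : ℝ} (h : κ ^ 6 < tr6 A) :
    κ ^ 2 < HSn A := by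
  by_contra hc
  have h0 := HSn_nonneg A
  have h1 : HSn A ^ 3 ≤ (κ ^ 2) ^ 3 := pow_le_pow_left₀ h0 (not_lt.1 hc) 3
  have h2 := tr6_le hA
  have e : (κ ^ 2) ^ 3 = κ ^ 6 := by ring
  linarith

/-! ### The slot and its cells -/

section cells

variable {Mx : ℕ → ℤ → Matrix ι ι ℝ} {o x1 : ℤ} {s : ℕ → ℤ → ℤ → ℝ} {n : ℕ}

theorem Rm_succ {j : ℕ} (hj : j < n) (x0 p : ℤ) :
    Rm Mx o x1 s n j x0 p = Lm Mx o x1 s (j + 1) x0 p + Rm Mx o x1 s n (j + 1) x0 p := by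
  unfold H841.Rm
  rw [sum_eq_sum_Ico_succ_bot hj]

theorem Rm_top (x0 p : ℤ) : Rm Mx o x1 s n n x0 p = 0 := by
  unfold H841.Rm
  rw [Ico_self, sum_empty]

/-- the slot depends only on the two cells -/
theorem Rm_cell {j : ℕ} {x0 z0 p q : ℤ} (h : ix j x0 = ix j z0) (h' : ix j p = ix j q) :
    Rm Mx o x1 s n j x0 p = Rm Mx o x1 s n j z0 q := by
  unfold H841.Rm
  refine sum_congr rfl fun i hi => ?_
  have hi' := (mem_Ico.1 hi).1
  have a0 := ix_le hi' h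
  have b0 := ix_le (Nat.le_succ i) a0
  have a1 := ix_le hi' h'
  have b1 := ix_le (Nat.le_succ i) a1
  unfold H841.Lm H922.ck
  rw [b0, b1, hs_ix a0, hs_ix a1]

/-- a difference of two times -/
theorem Rm_diff {j k : ℕ} (hjk : j ≤ k) (hk : k ≤ n) (x0 p : ℤ) :
    Rm Mx o x1 s n j x0 p = (∑ l ∈ Ico j k, Lm Mx o x1 s (l + 1) x0 p) +
      Rm Mx o x1 s n k x0 p := by
  unfold H841.Rm
  rw [sum_Ico_consecutive _ hjk hk]

/-- adjacent cells have adjacent ancestors -/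
theorem adj_anc {i j : ℕ} (hij : i ≤ j) {p y : ℤ} (h : |ix i p - ix i y| ≤ 1) :
    |ix j p - ix j y| ≤ 1 := by
  have e1 : ∀ x : ℤ, ix j x = ix i x / 2 ^ (j - i) := by
    intro x
    have := ix_ix i (j - i) x
    rw [show i + (j - i) = j by omega] at this
    rw [← this]
    rfl
  rw [e1 p, e1 y]
  rw [abs_le] at h ⊢
  have hp : (0 : ℤ) < 2 ^ (j - i) := by positivity
  have h1 : (ix i y + 1) / 2 ^ (j - i) ≤ ix i y / 2 ^ (j - i) + 1 := by
    have : (ix i y + 1) / 2 ^ (j - i) ≤ (ix i y + 2 ^ (j - i)) / 2 ^ (j - i) :=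
      Int.ediv_le_ediv hp (by linarith)
    rwa [show ix i y + 2 ^ (j - i) = ix i y + 1 * 2 ^ (j - i) by ring,
      Int.add_mul_ediv_right _ _ hp.ne'] at this
  have h2 : ix i y / 2 ^ (j - i) ≤ (ix i y - 1) / 2 ^ (j - i) + 1 := by
    have : (ix i y) / 2 ^ (j - i) ≤ (ix i y - 1 + 2 ^ (j - i)) / 2 ^ (j - i) :=
      Int.ediv_le_ediv hp (by linarith)
    rwa [show ix i y - 1 + 2 ^ (j - i) = ix i y - 1 + 1 * 2 ^ (j - i) by ring,
      Int.add_mul_ediv_right _ _ hp.ne'] at this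
  have h3 : ix i p / 2 ^ (j - i) ≤ (ix i y + 1) / 2 ^ (j - i) :=
    Int.ediv_le_ediv hp (by linarith [h.2])
  have h4 : (ix i y - 1) / 2 ^ (j - i) ≤ ix i p / 2 ^ (j - i) :=
    Int.ediv_le_ediv hp (by linarith [h.1])
  constructor <;> linarith

/-- points at distance at most `2 ^ k` have adjacent cells of scale `k` -/
theorem adj_of {k : ℕ} {p y : ℤ} (h : |p - y| ≤ 2 ^ k) : |ix k p - ix k y| ≤ 1 := by
  have hp : (0 : ℤ) < 2 ^ k := by positivity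
  rw [abs_le] at h ⊢
  unfold PL.ix
  have h1 : p / 2 ^ k ≤ (y + 2 ^ k) / 2 ^ k := Int.ediv_le_ediv hp (by linarith [h.2])
  rw [show y + 2 ^ k = y + 1 * 2 ^ k by ring, Int.add_mul_ediv_right _ _ hp.ne'] at h1
  have h2 : y / 2 ^ k ≤ (p + 2 ^ k) / 2 ^ k := Int.ediv_le_ediv hp (by linarith [h.1])
  rw [show p + 2 ^ k = p + 1 * 2 ^ k by ring, Int.add_mul_ediv_right _ _ hp.ne'] at h2
  constructor <;> linarith

/-! ### The set -/

variable (Mx o x1 s n)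

/-- over the cell `a` of scale `k` of `x0`: large slot at a scale `j ≥ k` near `y` -/
def Dn (κ : ℝ) (y : ℤ) (k : ℕ) (a : ℤ) : Prop :=
  ∃ j, k ≤ j ∧ j ≤ n ∧ ∃ p, |ix j p - ix j y| ≤ 1 ∧
    κ ^ 2 / 16 < HSn (Rm Mx o x1 s n j (2 ^ k * a) p)

variable {Mx o x1 s n}

theorem Dn_ix {κ : ℝ} {y : ℤ} (k : ℕ) (x0 : ℤ) :
    Dn Mx o x1 s n κ y k (ix k x0) ↔ ∃ j, k ≤ j ∧ j ≤ n ∧ ∃ p, |ix j p - ix j y| ≤ 1 ∧
      κ ^ 2 / 16 < HSn (Rm Mx o x1 s n j x0 p) := by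
  have e : ∀ j, k ≤ j → ∀ p, Rm Mx o x1 s n j (2 ^ k * ix k x0) p = Rm Mx o x1 s n j x0 p :=
    fun j hj p => Rm_cell (ix_le hj (ix_two k _)) rfl
  constructor
  · rintro ⟨j, hj, hn, p, hp, h⟩
    rw [e j hj] at h
    exact ⟨j, hj, hn, p, hp, h⟩
  · rintro ⟨j, hj, hn, p, hp, h⟩
    rw [← e j hj] at h
    exact ⟨j, hj, hn, p, hp, h⟩

/-- **the set grows downwards** -/
theorem Dn_anc {κ : ℝ} {y : ℤ} (j : ℕ) (a : ℤ)
    (h : Dn Mx o x1 s n κ y (j + 1) (a / 2)) : Dn Mx o x1 s n κ y j a := by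
  have e1 : ix j ((2 : ℤ) ^ j * a) = a := ix_two j a
  have e2 : ix (j + 1) ((2 : ℤ) ^ j * a) = a / 2 := by rw [H841.ix_half, e1]
  rw [← e2, Dn_ix] at h
  rw [← e1, Dn_ix]
  obtain ⟨i, hi, hn, p, hp, h⟩ := h
  exact ⟨i, by omega, hn, p, hp, h⟩

/-- the set at the scale `0`: five points per scale are enough -/
theorem Dn_zero {κ : ℝ} {y x0 : ℤ} (h : Dn Mx o x1 s n κ y 0 x0) :
    ∃ j ≤ n, ∃ p, (p = y ∨ p = y + 2 ^ j ∨ p = y - 2 ^ j) ∧
      κ ^ 2 / 16 < HSn (Rm Mx o x1 s n j x0 p) := by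
  have e0 : ix 0 x0 = x0 := by unfold PL.ix; norm_num
  rw [← e0, Dn_ix] at h
  obtain ⟨j, _, hn, p, hp, h⟩ := h
  have e1 : ix j (y + 2 ^ j) = ix j y + 1 := by
    unfold PL.ix
    rw [show y + 2 ^ j = y + 1 * 2 ^ j by ring, Int.add_mul_ediv_right _ _ (by positivity)]
  have e2 : ix j (y - 2 ^ j) = ix j y - 1 := by
    unfold PL.ix
    rw [show y - 2 ^ j = y + (-1) * 2 ^ j by ring, Int.add_mul_ediv_right _ _ (by positivity)]
    ring
  rw [abs_le] at hp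
  have h3 : ix j p = ix j y ∨ ix j p = ix j y + 1 ∨ ix j p = ix j y - 1 := by omega
  rcases h3 with h3 | h3 | h3
  · refine ⟨j, hn, y, Or.inl rfl, ?_⟩
    rwa [Rm_cell (z0 := x0) (q := y) rfl h3] at h
  · refine ⟨j, hn, y + 2 ^ j, Or.inr (Or.inl rfl), ?_⟩
    rwa [Rm_cell (z0 := x0) (q := y + 2 ^ j) rfl (h3.trans e1.symm)] at h
  · refine ⟨j, hn, y - 2 ^ j, Or.inr (Or.inr rfl), ?_⟩
    rwa [Rm_cell (z0 := x0) (q := y - 2 ^ j) rfl (h3.trans e2.symm)] at h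

end cells

/-! ### The stops -/

section stops

variable {l : ℝ} {n : ℕ} {Kq : ℕ → ℤ → Matrix ι ι ℝ} {M : ℕ → ℝ} {o x1 : ℤ}
  {s : ℕ → ℤ → ℤ → ℝ}

/-- the two cases of one step -/
theorem gmm_step {k : ℕ} (hk : k < n) (x0 p : ℤ) :
    gmm l n Kq M o x1 s k (ix k x0) (ix k p) = gmm l n Kq M o x1 s (k + 1) (ix (k + 1) x0)
      (ix (k + 1) p) ∨
    gmm l n Kq M o x1 s k (ix k x0) (ix k p) = gmm l n Kq M o x1 s (k + 1) (ix (k + 1) x0)
      (ix (k + 1) p) + 1 := by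
  rw [gmm_eq (show k ≤ n by omega), gmm_eq (show k + 1 ≤ n by omega), H841.ix_half k x0]
  exact (gn_st n M (XS l n Kq o x1 s p)).step hk (ix k x0)

theorem gmm_top (x0 p : ℤ) : gmm l n Kq M o x1 s n (ix n x0) (ix n p) = 0 := by
  rw [gmm_eq le_rfl]
  exact (gn_st n M (XS l n Kq o x1 s p)).topγ (ix n x0)

/-- before the start the slot of the generation vanishes -/
theorem Rm_zero {k : ℕ} (hk : k < n) (x0 p : ℤ) {g : ℕ}
    (h : gmm l n Kq M o x1 s (k + 1) (ix (k + 1) x0) (ix (k + 1) p) < g) :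
    Rm (MT l Kq) o x1 (sG l n Kq M o x1 s g) n k x0 p = 0 := by
  rw [Rm_gen g p (n - k) k (by omega) x0]
  rw [gmm_eq (show k + 1 ≤ n by omega), H841.ix_half k x0] at h
  exact (gn_st n M (XS l n Kq o x1 s p)).zero_child g hk (ix k x0) h

/-- while a generation moves its slot is a difference of the whole slot -/
theorem Rm_start (x0 p : ℤ) (g : ℕ) : ∀ d k, k + d = n →
    gmm l n Kq M o x1 s k (ix k x0) (ix k p) = g → ∃ j, k ≤ j ∧ j ≤ n ∧
      Rm (MT l Kq) o x1 (sG l n Kq M o x1 s g) n k x0 p =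
        Rm (MT l Kq) o x1 s n k x0 p - Rm (MT l Kq) o x1 s n j x0 p := by
  intro d
  induction d with
  | zero =>
    intro k hk _
    obtain rfl : k = n := by omega
    exact ⟨k, le_rfl, le_rfl, by rw [Rm_top, sub_self]⟩
  | succ d ih =>
    intro k hk hg
    have hkn : k < n := by omega
    rcases gmm_step (l := l) (Kq := Kq) (M := M) (o := o) (x1 := x1) (s := s) hkn x0 p with h | h
    · rw [hg] at h
      obtain ⟨j, hj, hn, e⟩ := ih (k + 1) (by omega) h.symm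
      refine ⟨j, by omega, hn, ?_⟩
      rw [Rm_succ hkn, Rm_succ (s := s) hkn, e]
      have eL : Lm (MT l Kq) o x1 (sG l n Kq M o x1 s g) (k + 1) x0 p =
          Lm (MT l Kq) o x1 s (k + 1) x0 p := by
        unfold H841.Lm H540.sG
        rw [if_pos h.symm]
      rw [eL]
      abel
    · refine ⟨k, le_rfl, hkn.le, ?_⟩
      rw [Rm_zero hkn x0 p (by omega), sub_self]

variable {G : ℕ → ℤ → Matrix ι ι ℝ}

/-- **a cell of generation at least `g + 1` has a stop above** -/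
theorem stop_diff (x0 p : ℤ) (g : ℕ) : ∀ d k, k + d = n →
    g + 1 ≤ gmm l n Kq M o x1 s k (ix k x0) (ix k p) → ∃ j j', k ≤ j ∧ j ≤ n ∧ k ≤ j' ∧ j' ≤ n ∧
      Rm (MT l Kq) o x1 (sG l n Kq M o x1 s g) n j x0 p =
        Rm (MT l Kq) o x1 s n j x0 p - Rm (MT l Kq) o x1 s n j' x0 p ∧
      M g < tr6 (Rm (MT l Kq) o x1 (sG l n Kq M o x1 s g) n j x0 p) := by
  intro d
  induction d with
  | zero =>
    intro k hk hg
    obtain rfl : k = n := by omega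
    rw [gmm_top] at hg
    omega
  | succ d ih =>
    intro k hk hg
    have hkn : k < n := by omega
    by_cases hc : g + 1 ≤ gmm l n Kq M o x1 s (k + 1) (ix (k + 1) x0) (ix (k + 1) p)
    · obtain ⟨j, j', h1, h2, h3, h4, h5, h6⟩ := ih (k + 1) (by omega) hc
      exact ⟨j, j', by omega, h2, by omega, h4, h5, h6⟩
    · have hst := gmm_step (l := l) (Kq := Kq) (M := M) (o := o) (x1 := x1) (s := s) hkn x0 p
      have e1 : gmm l n Kq M o x1 s (k + 1) (ix (k + 1) x0) (ix (k + 1) p) = g := by omega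
      have e2 : gmm l n Kq M o x1 s k (ix k x0) (ix k p) = g + 1 := by omega
      obtain ⟨j', h1, h2, h3⟩ := Rm_start (l := l) (Kq := Kq) (M := M) (o := o) (x1 := x1)
        (s := s) x0 p g (n - (k + 1)) (k + 1) (by omega) e1
      have eL : Lm (MT l Kq) o x1 (sG l n Kq M o x1 s g) (k + 1) x0 p =
          Lm (MT l Kq) o x1 s (k + 1) x0 p := by
        unfold H841.Lm H540.sG
        rw [if_pos e1]
      refine ⟨k, j', le_rfl, hkn.le, by omega, h2, ?_, ?_⟩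
      · rw [Rm_succ hkn, Rm_succ (s := s) hkn, h3, eL]
        abel
      · by_contra hM
        rw [Rm_gen g p (n - k) k (by omega) x0] at hM
        have hG := gn_st n M (XS l n Kq o x1 s p)
        rw [gmm_eq (show k + 1 ≤ n by omega), H841.ix_half k x0] at e1
        rw [gmm_eq (show k ≤ n by omega)] at e2
        have h4 := hG.stay k hkn (ix k x0 / 2) (ix k x0) rfl (by
          rw [e1]
          exact not_lt.1 hM)
        omega

/-- **large slot at itself or above** -/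
theorem stop_HS (hT : H420.Tr l n G Kq) {κ : ℕ → ℝ} (g : ℕ) {k : ℕ} (hk : k ≤ n) (x0 p : ℤ)
    (h : g + 1 ≤ gmm l n Kq (fun g => κ g ^ 6) o x1 s k (ix k x0) (ix k p)) :
    ∃ j, k ≤ j ∧ j ≤ n ∧ κ g ^ 2 / 4 < HSn (Rm (MT l Kq) o x1 s n j x0 p) := by
  obtain ⟨j, j', h1, h2, h3, h4, h5, h6⟩ := stop_diff (l := l) (Kq := Kq)
    (M := fun g => κ g ^ 6) (o := o) (x1 := x1) (s := s) x0 p g (n - k) k (by omega) h
  have h7 := HSn_of_tr6 (Rm_symm (M := fun g => κ g ^ 6) (o := o) (x1 := x1) (s := s) hT g h2 x0 p)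
    h6
  rw [h5] at h7
  have h8 := HSn_sub_le (Rm (MT l Kq) o x1 s n j x0 p) (Rm (MT l Kq) o x1 s n j' x0 p)
  by_cases hc : κ g ^ 2 / 4 < HSn (Rm (MT l Kq) o x1 s n j x0 p)
  · exact ⟨j, h1, h2, hc⟩
  · exact ⟨j', h3, h4, by linarith [not_lt.1 hc]⟩

theorem sG_ne {g k : ℕ} {a b : ℤ} (h : sG l n Kq M o x1 s g k a b ≠ 0) :
    gmm l n Kq M o x1 s k a b = g := by
  unfold H540.sG at h
  by_contra hc
  rw [if_neg hc] at h
  exact h rfl

/-- **(h1) the coarse layers of the generation `g + 1`** -/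
theorem hh1 (hT : H420.Tr l n G Kq) {κ : ℕ → ℝ} (g : ℕ) {i : ℕ} (hi : i < n) {x0 p y : ℤ}
    (hp : |ix (i + 1) p - ix (i + 1) y| ≤ 1)
    (h : sG l n Kq (fun g => κ g ^ 6) o x1 s (g + 1) (i + 1) (ix (i + 1) x0) (ix (i + 1) p) ≠ 0) :
    Dn (MT l Kq) o x1 s n (κ g) y (i + 1) (ix (i + 1) x0) := by
  obtain ⟨j, h1, h2, h3⟩ := stop_HS hT g (show i + 1 ≤ n by omega) x0 p (sG_ne h).ge
  rw [Dn_ix]
  refine ⟨j, h1, h2, p, adj_anc h1 hp, ?_⟩
  have := sq_nonneg (κ g)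
  linarith

/-- **(h2) the fine layers of the generation `g + 1`** -/
theorem hh2 (hT : H420.Tr l n G Kq) (hs1 : ∀ k a b, |s k a b| ≤ 1) {κ : ℕ → ℝ} (g : ℕ) {k i : ℕ}
    (hk : k ≤ n) (hi : i < k) {x0 p y : ℤ} (hp : |p - y| ≤ 2 ^ k)
    (h : sG l n Kq (fun g => κ g ^ 6) o x1 s (g + 1) (i + 1) (ix (i + 1) x0) (ix (i + 1) p) ≠ 0) :
    Dn (MT l Kq) o x1 s n (κ g) y k (ix k x0) ∨
      κ g ^ 2 / 16 ≤ ((k - i : ℕ) : ℝ) * ∑ m ∈ Ico (i + 1) k,
        HSn (MT l Kq (m + 1) (ck o x1 p (m + 1) - ix (m + 1) x0)) := by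
  obtain ⟨j, h1, h2, h3⟩ := stop_HS hT g (show i + 1 ≤ n by omega) x0 p (sG_ne h).ge
  have hk0 := sq_nonneg (κ g)
  rw [Dn_ix]
  by_cases hjk : k ≤ j
  · refine Or.inl ⟨j, hjk, h2, p, adj_anc hjk (adj_of hp), ?_⟩
    linarith
  · by_cases hc : κ g ^ 2 / 16 < HSn (Rm (MT l Kq) o x1 s n k x0 p)
    · exact Or.inl ⟨k, le_rfl, hk, p, adj_of hp, hc⟩
    · refine Or.inr ?_
      have hjk' : j ≤ k := by omega
      rw [Rm_diff hjk' hk] at h3
      have h4 := HSn_add_le (∑ m ∈ Ico j k, Lm (MT l Kq) o x1 s (m + 1) x0 p)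
        (Rm (MT l Kq) o x1 s n k x0 p)
      have h5 := HSn_sum_le (Ico j k) fun m => Lm (MT l Kq) o x1 s (m + 1) x0 p
      have h6 : ∀ m, HSn (Lm (MT l Kq) o x1 s (m + 1) x0 p) ≤
          HSn (MT l Kq (m + 1) (ck o x1 p (m + 1) - ix (m + 1) x0)) := fun m =>
        sum_le_sum fun a _ => Lm_le hs1 (m + 1) x0 p _
      have h7 : ∑ m ∈ Ico j k, HSn (Lm (MT l Kq) o x1 s (m + 1) x0 p) ≤
          ∑ m ∈ Ico (i + 1) k,
            HSn (MT l Kq (m + 1) (ck o x1 p (m + 1) - ix (m + 1) x0)) :=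
        (sum_le_sum fun m _ => h6 m).trans (sum_le_sum_of_subset_of_nonneg
          (Ico_subset_Ico_left h1) fun m _ _ => HSn_nonneg _)
      have h8 : ((Ico j k).card : ℝ) ≤ ((k - i : ℕ) : ℝ) := by
        rw [Nat.card_Ico]
        exact_mod_cast (by omega : k - j ≤ k - i)
      have h9 := mul_le_mul h8 h7 (sum_nonneg fun m _ => HSn_nonneg _) (Nat.cast_nonneg (k - i))
      linarith [not_lt.1 hc]

end stops

/-! ### The generations of `RT` -/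

section slot

open Vale.Agent.P141.H540 (s0 s0_le sgn)

variable {Al : ℕ → Pt → Prop} {o : ℤ} {K : ℕ} {P : Pt} {sg : ℕ → Pt → ℝ} {u : ℤ → ℤ → ι → ℝ}
  {l : ℝ} {κ : ℕ → ℝ} {x1 : ℤ}

/-- (h1) for the signs of `RT` -/
theorem sgn_h1 (hl : 0 < l) (g : ℕ) {i : ℕ} (hi : i < K) {x0 p y : ℤ}
    (hp : |ix (i + 1) p - ix (i + 1) y| ≤ 1)
    (h : sgn Al o K P sg l u κ (g + 1) x1 (i + 1) (ix (i + 1) x0) (ix (i + 1) p) ≠ 0) :
    Dn (MT l (KT l u x1)) o x1 (s0 Al o K P sg x1) K (κ g) y (i + 1) (ix (i + 1) x0) :=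
  hh1 (H677.tr_T hl K u x1) g hi hp h

/-- (h2) for the signs of `RT` -/
theorem sgn_h2 (hl : 0 < l) (hsg : ∀ k m, |sg k m| ≤ 1) (g : ℕ) {k i : ℕ} (hk : k ≤ K)
    (hi : i < k) {x0 p y : ℤ} (hp : |p - y| ≤ 2 ^ k)
    (h : sgn Al o K P sg l u κ (g + 1) x1 (i + 1) (ix (i + 1) x0) (ix (i + 1) p) ≠ 0) :
    Dn (MT l (KT l u x1)) o x1 (s0 Al o K P sg x1) K (κ g) y k (ix k x0) ∨
      κ g ^ 2 / 16 ≤ ((k - i : ℕ) : ℝ) * ∑ m ∈ Ico (i + 1) k,
        HSn (MT l (KT l u x1) (m + 1) (ck o x1 p (m + 1) - ix (m + 1) x0)) :=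
  hh2 (H677.tr_T hl K u x1) (s0_le hsg x1) g hk hi hp h

end slot

end

end Vale.Agent.P141.H521
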