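import Vale.Agent.P141.H886.NumOf
import Vale.Agent.P141.H736.FixBD
import Vale.Agent.P141.H329.WinS
import Vale.Agent.P141.H74.CapBC
import Vale.Agent.P141.H457.CutBC
import Vale.Agent.P141.H302.BornU
import Vale.Agent.P141.H548.LagU
import Vale.Agent.P141.H652.NumR
import Vale.Agent.P141.H652.NumQ
import Vale.Agent.P141.H989.CrB3

/-!
# P141, line (A), increasing part: the numbers of the moving pair `(Bg, Cg)` at class data

`fE`, `fB` : the two numbers; `numBC : H886.NumBC 2160000 2`; `lBCg : H408.LBCg`.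
-/

set_option linter.unusedSectionVars false
set_option linter.unusedVariables false

namespace Vale.Agent.P141.H521.BC

open Finset Matrix
open Vale.Agent.P075 (Ix)
open Vale.Agent.P141.PL (Pt iv ix cx mem_iv)
open Vale.Agent.P141.PL.H315 (Tri)
open Vale.Agent.P141.H48 (US ES BSl)
open Vale.Agent.P141.H305 (ClsM kapM)
open Vale.Agent.P141.H401 (StQ FibU FibP cb qB qC)
open Vale.Agent.P141.H677 (rt KT cP cP_pl tr_T)
open Vale.Agent.P141.H652 (Th ah eb Th_le_two wt_Th PbS payS dB)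
open Vale.Agent.P141.H103 (GW)
open Vale.Agent.P141.H419.PairB (gnV)
open Vale.Agent.P141.H419.WFamR
open Vale.Agent.P141.H912 (wS)
open Vale.Agent.P141.H874 Vale.Agent.P141.H457
open Vale.Agent.P141.H505.Sk1 (Ch eT)
open Vale.Agent.P141.H170.Win (cut cut_in)
open Vale.Agent.P141.H302 (bN tS Pr pr_not)
open Vale.Agent.P141.H548
open Vale.Agent.P141.H408
open Vale.Agent.P141.H808 (cS thS)
open Vale.Agent.P141.H886

noncomputable section

open scoped Classical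

theorem sumL_at {σ : ℝ} {f : ℕ → NumF} (H : SumL σ f) (l : ℕ) : SumU σ (f l) := by
  refine PairU.map (M := 1) zero_le_one H ?_
  intro ι _ _ p n ez F1 F2 F3 o K x s r U g u v Q1 Q2 Q3 X ht hs hr hez hX h
  rw [one_mul]
  exact h l

/-- the numbers of the second slot -/
def fE : NumF := fun ι _ _ p n ez F1 F2 F3 o K x s r U g u v Q1 Q2 Q3 x0 =>
  wS K (fun l => vN 0 l ι p n ez F1 F2 F3 o K x s r U g u v Q1 Q2 Q3 x0) +
  wS K (fun l => bN (l + 1) ι p n ez F1 F2 F3 o K x s r U g u v Q1 Q2 Q3 x0) +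
  vN 1 0 ι p n ez F1 F2 F3 o K x s r U g u v Q1 Q2 Q3 x0 +
  oN 0 ι p n ez F1 F2 F3 o K x s r U g u v Q1 Q2 Q3 x0 +
  H989.CrB.fCRB H989.CrB.mB ι p n ez F1 F2 F3 o K x s r U g u v Q1 Q2 Q3 x0 +
  bN 0 ι p n ez F1 F2 F3 o K x s r U g u v Q1 Q2 Q3 x0

/-- the numbers of the first slot -/
def fB : NumF := fun ι _ _ p n ez F1 F2 F3 o K x s r U g u v Q1 Q2 Q3 x0 =>
  dB p s r U K x u F3 Q3 x0 +
    payS (beI p r) (p.lam s r) o K (cx K x) u (fun k => H652.bS p s r U K u F3 Q3 x0 k) x0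

theorem sumU_fE : SumU 1 fE :=
  SumU.add (SumU.add (SumU.add (SumU.add (SumU.add (sumU_v (j := 0) zero_le_one) H302.sumU_b1)
    (sumL_at (sumL_v (j := 1) le_rfl) 0)) (sumL_at sumL_o 0)) H989.CrB.sumU_mB) H302.sumU_b0

theorem sumU_fB : SumU (-1) fB := H652.EBU

section pt

variable {ι : Type} [Fintype ι] [DecidableEq ι] {p : H401.Num} {n : ℕ} {ez : ℝ}
  {F1 F2 F3 : ℕ → Pt → ℝ} {o : ℤ} {K : ℕ} {x : Pt} {s r : ℝ} {U : Tri} {g : ℤ → ℤ → ℝ}
  {u v : ℤ → ℤ → ι → ℝ} {Q1 Q2 Q3 : ℕ → Pt → Prop} {x0 : ℤ}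

/-- the path cut to the root -/
abbrev PC (p : H401.Num) (ez : ℝ) (U : Tri) (K : ℕ) (x : Pt) (v : ℤ → ℤ → ι → ℝ)
    (F2 : ℕ → Pt → ℝ) (x0 : ℤ) : ℕ → ℤ → ℤ → ι → ℝ :=
  cut K (cx K x).1 (cx K x).2.2 (cS p ez U K v F2 x0)

/-- the move -/
abbrev dS (p : H401.Num) (s r : ℝ) (o : ℤ) (K : ℕ) (x : Pt) (u : ℤ → ℤ → ι → ℝ) (x0 : ℤ) :
    ℕ → ℤ → ℤ → Matrix ι ι ℝ :=
  fun k x1 m => ah (p.lam s r) K (cx K x).2.1 (KT (p.lam s r) u x1) (o - 2) x0 x1 k m

/-- the drift -/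
abbrev eS (p : H401.Num) (s r : ℝ) (o : ℤ) (K : ℕ) (x : Pt) (u : ℤ → ℤ → ι → ℝ) (x0 : ℤ) :
    ℕ → ℤ → ℤ → Matrix ι ι ℝ :=
  fun k x1 m => eb (p.lam s r) K (cx K x).2.1 (KT (p.lam s r) u x1) (o - 2) x0 x1 (k + 1) m

theorem cS_min (k : ℕ) (x1 z : ℤ) :
    cS p ez U K v F2 x0 (min k K) x1 z = cS p ez U K v F2 x0 k x1 z := by
  show C1 p ez U K v F2 x0 (min (min k K) K) z x1 = C1 p ez U K v F2 x0 (min k K) z x1
  rw [min_assoc, min_self]

theorem PC_in (k : ℕ) {x1 z : ℤ} (hx : x1 ∈ iv K (cx K x).1) (hz : z ∈ iv K (cx K x).2.2) :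
    PC p ez U K x v F2 x0 k x1 z = cS p ez U K v F2 x0 k x1 z := by
  unfold PC
  rw [cut_in hx hz, cS_min]

theorem PC_zero (x1 z : ℤ) : PC p ez U K x v F2 x0 0 x1 z = 0 := by
  unfold PC H170.Win.cut
  split_ifs
  · rw [cS_min, cS_zero]
  · rfl

theorem pr_cut (k : ℕ) (w m : ℤ) (h : Pr (PC p ez U K x v F2 x0) k w m) :
    Ch (cS p ez U K v F2 x0) k m (ix k w) := by
  obtain ⟨x1, hx, hne⟩ := h
  refine ⟨x1, hx, w, mem_iv.2 rfl, fun h1 => hne ?_⟩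
  by_cases hh : x1 ∈ iv K (cx K x).1 ∧ w ∈ iv K (cx K x).2.2
  · rw [PC_in _ hh.1 hh.2, PC_in _ hh.1 hh.2, h1]
  · unfold PC H170.Win.cut
    rw [if_neg hh, if_neg hh]

theorem kinds_nn (ht : 0 < p.t) (hs : 0 < s) (hr : 1 ≤ r) (a : ℕ) (x1 z : ℤ) (w : ι → ℝ) :
    0 ≤ kinds p s r o K x u x0 a x1 z w := by
  have h1 := zm_nonneg ht hs hr o K x u x0 a x1 z w
  have h2 := ze_nonneg ht hs hr o K x u x0 a x1 z w
  have h3 := zd_nonneg ht hs hr o K x u x0 a x1 z w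
  have h4 := zq_nonneg ht hs hr o K x u x0 a x1 z w
  unfold kinds
  linarith

theorem vN_nn (ht : 0 < p.t) (hs : 0 < s) (hr : 1 ≤ r) (j q : ℕ) :
    0 ≤ vN j q ι p n ez F1 F2 F3 o K x s r U g u v Q1 Q2 Q3 x0 := by
  unfold vN
  exact sum_nonneg fun k _ => sum_nonneg fun x1 _ => sum_nonneg fun z _ =>
    add_nonneg (chg_nonneg ht hs hr _ _ _ _ _ _ _ _ _) (kinds_nn ht hs hr _ _ _ _)

theorem oN_nn (ht : 0 < p.t) (hs : 0 < s) (hr : 1 ≤ r) (q : ℕ) :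
    0 ≤ oN q ι p n ez F1 F2 F3 o K x s r U g u v Q1 Q2 Q3 x0 := by
  unfold oN
  exact sum_nonneg fun x1 _ => sum_nonneg fun z _ => H302.eT_nn ht hs hr _ _ _ _

theorem bN_nn (ht : 0 < p.t) (hs : 0 < s) (hr : 1 ≤ r) (q : ℕ) :
    0 ≤ bN q ι p n ez F1 F2 F3 o K x s r U g u v Q1 Q2 Q3 x0 := by
  unfold bN
  refine sum_nonneg fun k _ => sum_nonneg fun x1 _ => sum_nonneg fun z _ => ?_
  split_ifs
  · exact H302.eT_nn ht hs hr _ _ _ _
  · exact le_rfl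

theorem crb_nn (ht : 0 < p.t) (hs : 0 < s) (hr : 1 ≤ r) :
    0 ≤ H989.CrB.fCRB H989.CrB.mB ι p n ez F1 F2 F3 o K x s r U g u v Q1 Q2 Q3 x0 := by
  unfold H989.CrB.fCRB
  refine sum_nonneg fun k _ => sum_nonneg fun x1 _ => sum_nonneg fun z _ => ?_
  split_ifs
  · exact H302.eT_nn ht hs hr _ _ _ _
  · exact le_rfl

/-- the variation and the drift at the lag `q` -/
theorem nmDE (ht : 0 < p.t) (hs : 0 < s) (hr : 1 ≤ r) (j q : ℕ) :
    (beI p r)⁻¹ * ∑ k ∈ Ico 0 (K - q), Dn K (cx K x).2.2 (cx K x).1 (dS p s r o K x u x0)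
        (PC p ez U K x v F2 x0 (k + j)) (k + q) +
      (beI p r)⁻¹ * ∑ k ∈ Ico 0 (K - q), En K (cx K x).2.2 (cx K x).1 (eS p s r o K x u x0)
        (PC p ez U K x v F2 x0 (k + j)) (k + q) ≤
      vN j q ι p n ez F1 F2 F3 o K x s r U g u v Q1 Q2 Q3 x0 := by
  unfold vN
  rw [mul_sum, mul_sum, ← sum_add_distrib, range_eq_Ico]
  refine sum_le_sum fun k _ => ?_
  unfold Dn En
  rw [mul_sum, mul_sum, ← sum_add_distrib]
  refine sum_le_sum fun x1 hx => ?_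
  rw [mul_sum, mul_sum, ← sum_add_distrib]
  refine sum_le_sum fun z hz => ?_
  rw [PC_in _ hx hz]
  have h := raw_le (p := p) ht hs hr o K x u x0 (k + q) x1 z (cS p ez U K v F2 x0 (k + j) x1 z)
  have h2 := kinds_nn (p := p) (o := o) (K := K) (x := x) (u := u) (x0 := x0) ht hs hr (k + q) x1 z
    (cS p ez U K v F2 x0 (k + j) x1 z)
  linarith

theorem Wn_cut (be : ℝ) (T : ℕ → ℤ → ℤ → Matrix ι ι ℝ) (P : ℤ → ℤ → Prop) (k j a : ℕ) :
    Wn K (cx K x).2.2 (cx K x).1 be T (rs P k (PC p ez U K x v F2 x0 j)) a =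
      Wn K (cx K x).2.2 (cx K x).1 be T (rs P k (cS p ez U K v F2 x0 j)) a := by
  unfold Wn
  refine sum_congr rfl fun x1 hx => sum_congr rfl fun z hz => ?_
  have e : rs P k (PC p ez U K x v F2 x0 j) x1 z = rs P k (cS p ez U K v F2 x0 j) x1 z := by
    unfold rs
    rw [PC_in _ hx hz]
  rw [e]

/-- energy at the start of the shifted path -/
theorem nmH1_le (ht : 0 < p.t) (hs : 0 < s) (hr : 1 ≤ r) :
    nmH K (cx K x).2.2 (cx K x).1 (beI p r) (tS p s r o K x u x0)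
      (c1 K (PC p ez U K x v F2 x0)) 0 ≤
      oN 0 ι p n ez F1 F2 F3 o K x s r U g u v Q1 Q2 Q3 x0 := by
  unfold nmH c1 Wn oN
  refine sum_le_sum fun x1 hx => sum_le_sum fun z hz => ?_
  rw [PC_in _ hx hz, cS_min, Nat.zero_min]
  exact le_rfl

/-- energy at the start -/
theorem nmH0_le (be : ℝ) (T : ℕ → ℤ → ℤ → Matrix ι ι ℝ) (q : ℕ) :
    nmH K (cx K x).2.2 (cx K x).1 be T (PC p ez U K x v F2 x0) q = 0 := by
  unfold nmH Wn
  refine sum_eq_zero fun x1 _ => sum_eq_zero fun z _ => ?_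
  rw [PC_zero, zero_dotProduct]

end pt

/-- **The inequality at one `x0`.** -/
theorem fixBC : FixBC (18 * 120000) 2 fE fB := by
  intro ι _ _ p n ez F1 F2 F3 o K x s r U g u v Q1 Q2 Q3 ha ha1 he0 he04 hk8 hk3 hc hd hd1 hKt he
    hcP hL ht ht1 h1 h3 h2 ho hKn hs hr hcls q1 q2 q3 hez f1 f2 t' ht' x0 hx0 z J hz1 hz2 hJ
  have hl : 0 < p.lam s r := H401.Num.lam_pos (p := p) ht hs hr
  have hth : 0 < p.th s r := H401.Num.th_pos (p := p) ht hs hr
  have hy : 0 < p.t / r := div_pos ht (by linarith)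
  have hbe : 0 < beI p r := Real.rpow_pos_of_pos hy _
  have hbe1 : beI p r ≤ 1 := beI_le_one ht ht1 he0.le hr
  have htau : 0 < tauI p s r := by
    unfold tauI
    linarith
  have hz : 0 < z := by
    refine lt_of_lt_of_le ?_ hz1
    unfold gI
    exact mul_pos (Real.rpow_pos_of_pos hy _) htau
  have nv0 := vN_nn (ι := ι) (p := p) (n := n) (ez := ez) (F1 := F1) (F2 := F2) (F3 := F3) (o := o)
    (K := K) (x := x) (s := s) (r := r) (U := U) (g := g) (u := u) (v := v) (Q1 := Q1) (Q2 := Q2)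
    (Q3 := Q3) (x0 := x0) ht hs hr
  have nb := bN_nn (ι := ι) (p := p) (n := n) (ez := ez) (F1 := F1) (F2 := F2) (F3 := F3) (o := o)
    (K := K) (x := x) (s := s) (r := r) (U := U) (g := g) (u := u) (v := v) (Q1 := Q1) (Q2 := Q2)
    (Q3 := Q3) (x0 := x0) ht hs hr
  have no := oN_nn (ι := ι) (p := p) (n := n) (ez := ez) (F1 := F1) (F2 := F2) (F3 := F3) (o := o)
    (K := K) (x := x) (s := s) (r := r) (U := U) (g := g) (u := u) (v := v) (Q1 := Q1) (Q2 := Q2)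
    (Q3 := Q3) (x0 := x0) ht hs hr 0
  have nc := crb_nn (ι := ι) (p := p) (n := n) (ez := ez) (F1 := F1) (F2 := F2) (F3 := F3) (o := o)
    (K := K) (x := x) (s := s) (r := r) (U := U) (g := g) (u := u) (v := v) (Q1 := Q1) (Q2 := Q2)
    (Q3 := Q3) (x0 := x0) ht hs hr
  set V0 : ℕ → ℝ := fun l => vN 0 l ι p n ez F1 F2 F3 o K x s r U g u v Q1 Q2 Q3 x0 with hV0
  set B1 : ℕ → ℝ := fun l => bN (l + 1) ι p n ez F1 F2 F3 o K x s r U g u v Q1 Q2 Q3 x0 with hB1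
  set V1 : ℝ := vN 1 0 ι p n ez F1 F2 F3 o K x s r U g u v Q1 Q2 Q3 x0 with hV1
  set O1 : ℝ := oN 0 ι p n ez F1 F2 F3 o K x s r U g u v Q1 Q2 Q3 x0 with hO1
  set CR : ℝ := H989.CrB.fCRB H989.CrB.mB ι p n ez F1 F2 F3 o K x s r U g u v Q1 Q2 Q3 x0 with hCR
  set B0 : ℝ := bN 0 ι p n ez F1 F2 F3 o K x s r U g u v Q1 Q2 Q3 x0 with hB0
  have eE : fE ι p n ez F1 F2 F3 o K x s r U g u v Q1 Q2 Q3 x0 =
    wS K V0 + wS K B1 + V1 + O1 + CR + B0 := rfl
  set E : ℝ := fE ι p n ez F1 F2 F3 o K x s r U g u v Q1 Q2 Q3 x0 with hE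
  set EB : ℝ := fB ι p n ez F1 F2 F3 o K x s r U g u v Q1 Q2 Q3 x0 with hEB
  have g1 : 0 ≤ wS K V0 := H912.wS_nonneg fun l => nv0 0 l
  have g2 : 0 ≤ wS K B1 := H912.wS_nonneg fun l => nb (l + 1)
  have g3 : 0 ≤ V1 := nv0 1 0
  have g4 : 0 ≤ B0 := nb 0
  have hE0 : 0 ≤ E := by linarith
  have d0 : 0 ≤ dB p s r U K x u F3 Q3 x0 := H652.dB_nonneg x x0
  have d1 : 0 ≤ payS (beI p r) (p.lam s r) o K (cx K x) u
      (fun k => H652.bS p s r U K u F3 Q3 x0 k) x0 := H652.payS_nonneg hbe hl _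
  have hEB0 : 0 ≤ EB := add_nonneg d0 d1
  have eB1 : dB p s r U K x u F3 Q3 x0 ≤ EB := le_add_of_nonneg_right d1
  have eB2 : payS (beI p r) (p.lam s r) o K (cx K x) u
      (fun k => H652.bS p s r U K u F3 Q3 x0 k) x0 ≤ EB := le_add_of_nonneg_left d0
  have de0 := fun q => nmDE (ι := ι) (p := p) (n := n) (ez := ez) (F1 := F1) (F2 := F2) (F3 := F3)
    (o := o) (K := K) (x := x) (s := s) (r := r) (U := U) (g := g) (u := u) (v := v) (Q1 := Q1)
    (Q2 := Q2) (Q3 := Q3) (x0 := x0) ht hs hr 0 q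
  have de1 := nmDE (ι := ι) (p := p) (n := n) (ez := ez) (F1 := F1) (F2 := F2) (F3 := F3) (o := o)
    (K := K) (x := x) (s := s) (r := r) (U := U) (g := g) (u := u) (v := v) (Q1 := Q1) (Q2 := Q2)
    (Q3 := Q3) (x0 := x0) ht hs hr 1 0
  have hW : H419.Wt (tS p s r o K x u x0) (eS p s r o K x u x0) (dS p s r o K x u x0) :=
    wt_Th (fun x1 => tr_T hl K u x1) (cx K x).2.1 (o - 2) x0
  have hbi : 0 ≤ (beI p r)⁻¹ := (inv_pos.2 hbe).le
  have nD : ∀ q, 0 ≤ (beI p r)⁻¹ * nmD K (cx K x).2.2 (cx K x).1 (dS p s r o K x u x0)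
      (PC p ez U K x v F2 x0) q := fun q => mul_nonneg hbi (nmD_nonneg _ _ _ _ _)
  have nE : ∀ q, 0 ≤ (beI p r)⁻¹ * nmE K (cx K x).2.2 (cx K x).1 (eS p s r o K x u x0)
      (PC p ez U K x v F2 x0) q := fun q => mul_nonneg hbi (nmE_nonneg hW.pe _ _ _ _ _)
  have nD1 : 0 ≤ (beI p r)⁻¹ * nmD K (cx K x).2.2 (cx K x).1 (dS p s r o K x u x0)
      (c1 K (PC p ez U K x v F2 x0)) 0 := mul_nonneg hbi (nmD_nonneg _ _ _ _ _)
  have nE1 : 0 ≤ (beI p r)⁻¹ * nmE K (cx K x).2.2 (cx K x).1 (eS p s r o K x u x0)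
      (c1 K (PC p ez U K x v F2 x0)) 0 := mul_nonneg hbi (nmE_nonneg hW.pe _ _ _ _ _)
  have hDE1 : (beI p r)⁻¹ * nmD K (cx K x).2.2 (cx K x).1 (dS p s r o K x u x0)
      (c1 K (PC p ez U K x v F2 x0)) 0 +
      (beI p r)⁻¹ * nmE K (cx K x).2.2 (cx K x).1 (eS p s r o K x u x0)
      (c1 K (PC p ez U K x v F2 x0)) 0 ≤ V1 := by
    rw [nmD_c1, nmE_c1]
    exact de1
  have hC' : 2 * cCI p s r ^ 2 ≤ z ^ 2 * 4 ^ J := by
    have e1 : (2 * cCI p s r) ^ 2 = 4 * cCI p s r ^ 2 := by ring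
    rw [e1, mul_comm ((4 : ℝ) ^ J)] at hJ
    have := sq_nonneg (cCI p s r)
    linarith
  have key := H736.fix_BC2 (κ := ι) (be := beI p r) (T := tS p s r o K x u x0)
    (e := eS p s r o K x u x0) (d := dS p s r o K x u x0) hbe hbe1 (s := z ^ 2)
    (q := p.th s r ^ 2) (τ := 2) (by positivity) (by positivity) (by norm_num) le_rfl hW
    (fun k x1 m => Th_le_two (tr_T hl K u x1) (o - 2) x0 x1 k m) (N := K)
    (b := H652.bS p s r U K u F3 Q3 x0) (c := PC p ez U K x v F2 x0)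
    (Pb := PbS p s r U K u F3 Q3 x0) (Pc := Pr (PC p ez U K x v F2 x0)) (H652.PbS_off x0) pr_not
    (H652.bS_capk hth x0) (H652.bS_capk1 hth x0) (H652.bS_capN hth x0) (C := cCI p s r ^ 2)
    (fun k a n' m hka haK => H74.CapBC.cut_capX ht ht1 hd1 he0.le hs hr hez hKn hcls.toCls q2 x0
      (by omega) (by omega) (by omega) n' m)
    (fun k a n' m hka haK => H74.CapBC.cut_capX ht ht1 hd1 he0.le hs hr hez hKn hcls.toCls q2 x0
      (by omega) (by omega) (by omega) n' m) (J := J) hC' (R₁ := (cx K x).2.1) (S₁ := (cx K x).1)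
    (T₁ := (cx K x).2.2) (cc := cP o x0) (cP_pl ho x0) (E := E) (EB := EB) hE0 hEB0
    ((H652.bS_hB1 x x0).trans eB1) ((H652.bS_hB2 x x0).trans eB1)
    ((H652.pay_hB3 hbe hl _).trans eB2) ((H652.pay_hB4 hbe _).trans eB2)
    ?_ ?_ ?_ ?_ ?_ ?_ ?_ ?_ ?_
  rotate_left
  · -- hC0
    refine (nmH1_le (n := n) (F1 := F1) (F3 := F3) (g := g) (Q1 := Q1) (Q2 := Q2) (Q3 := Q3)
      ht hs hr).trans ?_
    rw [← hO1]
    linarith
  · linarith
  · linarith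
  · -- hC3
    have h4 : ∑ k ∈ Ico 0 K, ∑ x1 ∈ iv K (cx K x).1, ∑ z' ∈ iv K (cx K x).2.2,
        (if ∃ w, ix (k + 1) w = cP o x0 (k + 1) - ix (k + 1) x1 - ix (k + 1) z' ∧
          PbS p s r U K u F3 Q3 x0 k w (ix k x1) then
          H736.wE (beI p r) (tS p s r o K x u x0) k (PC p ez U K x v F2 x0 (k + 1)) x1 z'
          else 0) ≤ CR := by
      refine le_of_eq ?_
      rw [hCR]
      unfold H989.CrB.fCRB
      refine sum_congr rfl fun k _ => sum_congr rfl fun x1 hx => sum_congr rfl fun z' hz' => ?_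
      unfold H736.wE
      rw [PC_in _ hx hz']
      rfl
    exact h4.trans (by linarith)
  · -- hC4
    have h4 := H302.Wn_bN (x0 := x0) (u := u) (o := o) (ez := ez) (U := U) (v := v) (F2 := F2)
      ht hs hr (P := Pr (PC p ez U K x v F2 x0)) (K := K) (x := x) (fun k w m h => pr_cut k w m h) n
      F1 F3 g Q1 Q2 Q3
    rw [← hB0] at h4
    refine le_trans (le_of_eq ?_) (h4.trans (by linarith))
    exact sum_congr rfl fun k _ => Wn_cut _ _ _ _ _ _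
  · -- hW0
    have h4 : wS K (nmH K (cx K x).2.2 (cx K x).1 (beI p r) (tS p s r o K x u x0)
        (PC p ez U K x v F2 x0)) = 0 := by
      unfold H912.wS
      exact sum_eq_zero fun q _ => by rw [nmH0_le, mul_zero]
    rw [h4]
    exact hE0
  · -- hW1
    have h4 : wS K (fun q => (beI p r)⁻¹ * nmD K (cx K x).2.2 (cx K x).1 (dS p s r o K x u x0)
        (PC p ez U K x v F2 x0) q) ≤ wS K V0 := H912.wS_mono fun q => by
      have h5 := de0 q
      have h6 := nE q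
      unfold nmE at h6
      unfold nmD
      simp only [Nat.add_zero] at h5
      linarith
    exact h4.trans (by linarith)
  · -- hW2
    have h4 : wS K (fun q => (beI p r)⁻¹ * nmE K (cx K x).2.2 (cx K x).1 (eS p s r o K x u x0)
        (PC p ez U K x v F2 x0) q) ≤ wS K V0 := H912.wS_mono fun q => by
      have h5 := de0 q
      have h6 := nD q
      unfold nmD at h6
      unfold nmE
      simp only [Nat.add_zero] at h5
      linarith
    exact h4.trans (by linarith)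
  · -- hW3
    have h4 : wS K (nmB K (cx K x).2.2 (cx K x).1 (beI p r) (tS p s r o K x u x0)
        (Pr (PC p ez U K x v F2 x0)) (PC p ez U K x v F2 x0)) ≤ wS K B1 :=
      H912.wS_mono fun q => by
      refine le_trans (le_of_eq ?_) (H302.nmB_bN (x0 := x0) (u := u) (o := o) (ez := ez) (U := U)
        (v := v) (F2 := F2) ht hs hr (P := Pr (PC p ez U K x v F2 x0)) (K := K) (x := x)
        (fun k w m h => pr_cut k w m h) q n F1 F3 g Q1 Q2 Q3)
      unfold nmB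
      exact sum_congr rfl fun k _ => Wn_cut _ _ _ _ _ _
    exact h4.trans (by linarith)
  -- the conclusion
  refine (H329.WinBC.pBC_cls ht hs hr ez U o K x u v F2 F3 Q3 htau hz x0).trans ?_
  have e5 : ∑ k ∈ Ico 0 K, GW K (cx K x).2.1 (cx K x).1 (cx K x).2.2 (k + 1) (cP o x0 (k + 1))
        (gnV (ι := fun k => Ix k × ι) (fun k a n m => CP (H652.bS p s r U K u F3 Q3 x0 k) k a n m)
          (fun k a n m => PG (beI p r) (z ^ 2)
            (fun a x1 j => Th (p.lam s r) K (cx K x).2.1 (KT (p.lam s r) u x1) (o - 2) x0 x1 a j)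
            (cS p ez U K v F2 x0 k) k a n m) (fun k => sk (k + 1) ι) k) =
      ∑ k ∈ Ico 0 K, GW K (cx K x).2.1 (cx K x).1 (cx K x).2.2 (k + 1) (cP o x0 (k + 1))
        (gnV (ι := fun k => Ix k × ι) (fun k a n m => CP (H652.bS p s r U K u F3 Q3 x0 k) k a n m)
          (fun k a n m => PG (beI p r) (z ^ 2) (tS p s r o K x u x0)
            (PC p ez U K x v F2 x0 k) k a n m) (fun k => sk (k + 1) ι) k) :=
    sum_congr rfl fun k hk => gnV_ext _ _ _ _ (mem_Ico.1 hk).2 _ (fun _ _ _ _ => rfl)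
      fun x1 hx z' hz' => (PC_in _ hx hz').symm
  rw [e5]
  refine key.trans ?_
  have hq : p.th s r ^ 2 ≤ tauI p s r ^ 2 := by
    unfold tauI
    nlinarith
  have m1 : z ^ 2 * E * (p.th s r ^ 2 * EB) ≤ z ^ 2 * E * (tauI p s r ^ 2 * EB) :=
    mul_le_mul_of_nonneg_left (mul_le_mul_of_nonneg_right hq hEB0) (by positivity)
  have m2 : p.th s r ^ 2 * E ≤ tauI p s r ^ 2 * E := mul_le_mul_of_nonneg_right hq hE0
  have m3 := Real.sqrt_le_sqrt m1
  have e6 : 18 * (120000 * ((J : ℝ) + 1) ^ 3) = 18 * 120000 * ((J : ℝ) + 1) ^ 3 := by ring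
  rw [e6]
  exact mul_le_mul_of_nonneg_left (add_le_add m3 m2) (by positivity)

theorem nn_fE : NN fE := by
  intro ι _ _ p n ez F1 F2 F3 o K x s r U g u v Q1 Q2 Q3 x0 ht hs hr hez
  have g1 : 0 ≤ wS K (fun l => vN 0 l ι p n ez F1 F2 F3 o K x s r U g u v Q1 Q2 Q3 x0) :=
    H912.wS_nonneg fun l => vN_nn ht hs hr 0 l
  have g2 : 0 ≤ wS K (fun l => bN (l + 1) ι p n ez F1 F2 F3 o K x s r U g u v Q1 Q2 Q3 x0) :=
    H912.wS_nonneg fun l => bN_nn ht hs hr (l + 1)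
  unfold fE
  exact add_nonneg (add_nonneg (add_nonneg (add_nonneg (add_nonneg g1 g2) (vN_nn ht hs hr 1 0))
    (oN_nn ht hs hr 0)) (crb_nn ht hs hr)) (bN_nn ht hs hr 0)

theorem nn_fB : NN fB := by
  intro ι _ _ p n ez F1 F2 F3 o K x s r U g u v Q1 Q2 Q3 x0 ht hs hr hez
  have hl : 0 < p.lam s r := H401.Num.lam_pos (p := p) ht hs hr
  have hbe : 0 < beI p r := Real.rpow_pos_of_pos (div_pos ht (by linarith)) _
  exact add_nonneg (H652.dB_nonneg x x0) (H652.payS_nonneg hbe hl _)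

/-- **The numbers of the moving pair.** -/
theorem numBC : NumBC (18 * 120000) 2 := numBC_of sumU_fE sumU_fB nn_fE nn_fB fixBC

/-- **The moving pair `(Bg, Cg)`.** -/
theorem lBCg : LBCg := lbc_end (by norm_num) (by norm_num) numBC

end

end Vale.Agent.P141.H521.BC
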